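import Vale.Agent.Lib.P229.Main

/-!
# P229: metrics with a coordinate Killing field are locally smoothly realizable in `ℝ^3`

Every `C^∞` Riemannian metric `E(x) dx^2 + 2 F(x) dx dy + G(x) dy^2` on the plane (coefficients
independent of `y`, no condition on the curvature) is locally `C^∞`-realizable at every point.

Sketch.  Near `x0` take `f = √G`, `φ' = F / G`, a large constant `c`, and
`h' = √(E - F^2 / G - f'^2 / c^2)`; the helicoidal map
`(x, y) ↦ (f(x) cos(c (y + φ(x))) / c, f(x) sin(c (y + φ(x))) / c, h(x))` is an isometric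
immersion on the open strip where the radicand is positive.
-/

namespace Vale.Agent.Results.P229.KillingField

open Vale.Agent.Lib.P229

theorem result :
    ∀ E F G : ℝ → ℝ,
      ContDiff ℝ ((⊤ : ℕ∞) : WithTop ℕ∞) E → ContDiff ℝ ((⊤ : ℕ∞) : WithTop ℕ∞) F →
      ContDiff ℝ ((⊤ : ℕ∞) : WithTop ℕ∞) G →
      (∀ x, 0 < E x) → (∀ x, 0 < E x * G x - F x ^ 2) →
      IsSmoothMetric Set.univ (invMetric E F G) ∧
        ∀ p : R2, LocallyRealizable Set.univ (invMetric E F G) p :=
  fun _ _ _ hE hF hG hE0 hdet =>
    ⟨invMetric_isSmoothMetric hE hF hG hE0 hdet,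
      fun p => invMetric_locallyRealizable hE hF hG hE0 hdet p⟩

end Vale.Agent.Results.P229.KillingField
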